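import Mathlib

/-! P015, row A. -/

namespace Vale.Agent.H22.P015

open Finset ArithmeticFunction

/-- The character mod 4. -/
noncomputable def chi (n : ℕ) : ℝ := ((ZMod.χ₄ (n : ZMod 4) : ℤ) : ℝ)

theorem chi_one : chi 1 = 1 := by unfold chi; simp

theorem chi_zero : chi 0 = 0 := by
  unfold chi
  have : ZMod.χ₄ ((0:ℕ) : ZMod 4) = 0 := by decide
  rw [this]; simp

theorem chi_mul (m n : ℕ) : chi (m * n) = chi m * chi n := by
  unfold chi; push_cast; rw [map_mul]; push_cast; ring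

theorem chi_even (n : ℕ) (h : n % 2 = 0) : chi n = 0 := by
  unfold chi; rw [ZMod.χ₄_nat_eq_if_mod_four, if_pos h]; simp

theorem chi_1 (n : ℕ) (h : n % 4 = 1) : chi n = 1 := by
  unfold chi; rw [ZMod.χ₄_nat_one_mod_four h]; simp

theorem chi_3 (n : ℕ) (h : n % 4 = 3) : chi n = -1 := by
  unfold chi; rw [ZMod.χ₄_nat_three_mod_four h]; simp

theorem chi_cases (n : ℕ) : chi n = 0 ∨ chi n = 1 ∨ chi n = -1 := by
  have h : n % 2 = 0 ∨ n % 4 = 1 ∨ n % 4 = 3 := by omega
  rcases h with h | h | h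
  · exact Or.inl (chi_even n h)
  · exact Or.inr (Or.inl (chi_1 n h))
  · exact Or.inr (Or.inr (chi_3 n h))

/-- partial sums of `1 - 1/3 + 1/5 - ...` -/
noncomputable def A (D : ℕ) : ℝ := ∑ d ∈ range (D + 1), chi d / d

theorem A_succ (D : ℕ) : A (D + 1) = A D + chi (D + 1) / ((D + 1 : ℕ) : ℝ) := by
  unfold A; rw [Finset.sum_range_succ]

theorem A_three (k : ℕ) : 2 / 3 ≤ A (4 * k + 3) := by
  induction k with
  | zero =>
    have h : A 3 = 2 / 3 := by
      rw [A_succ, A_succ, A_succ]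
      have h0 : A 0 = 0 := by unfold A; simp
      rw [h0, chi_1 1 (by norm_num), chi_even 2 (by norm_num), chi_3 3 (by norm_num)]
      norm_num
    rw [Nat.mul_zero, Nat.zero_add, h]
  | succ k ih =>
    have e : 4 * (k + 1) + 3 = 4 * k + 3 + 1 + 1 + 1 + 1 := by ring
    rw [e, A_succ, A_succ, A_succ, A_succ]
    rw [chi_even (4 * k + 3 + 1) (by omega), chi_1 (4 * k + 3 + 1 + 1) (by omega),
      chi_even (4 * k + 3 + 1 + 1 + 1) (by omega), chi_3 (4 * k + 3 + 1 + 1 + 1 + 1) (by omega)]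
    have h1 : (-1 : ℝ) / ((4 * k + 3 + 1 + 1 + 1 + 1 : ℕ) : ℝ) ≥ - (1 / ((4 * k + 3 + 1 + 1 : ℕ) : ℝ)) := by
      rw [neg_div]
      apply neg_le_neg
      apply one_div_le_one_div_of_le
      · positivity
      · push_cast; linarith
    rw [zero_div, zero_div]
    linarith

theorem A_ge (D : ℕ) (hD : 1 ≤ D) : 2 / 3 ≤ A D := by
  have h0 : A 0 = 0 := by unfold A; simp
  have h1 : A 1 = 1 := by rw [A_succ, h0, chi_1 1 (by norm_num)]; norm_num
  have h2 : A 2 = 1 := by rw [A_succ, h1, chi_even 2 (by norm_num)]; norm_num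
  by_cases hD1 : D = 1
  · rw [hD1, h1]; norm_num
  by_cases hD2 : D = 2
  · rw [hD2, h2]; norm_num
  obtain ⟨k, hk⟩ : ∃ k, D = 4 * k + 3 ∨ D = 4 * k + 4 ∨ D = 4 * k + 5 ∨ D = 4 * k + 6 :=
    ⟨(D - 3) / 4, by omega⟩
  have h3 := A_three k
  have h4 : A (4 * k + 4) = A (4 * k + 3) := by
    rw [A_succ, chi_even (4 * k + 3 + 1) (by omega)]; simp
  have h5 : A (4 * k + 5) = A (4 * k + 4) + 1 / ((4 * k + 5 : ℕ) : ℝ) := by
    rw [A_succ, chi_1 (4 * k + 4 + 1) (by omega)]
  have h6 : A (4 * k + 6) = A (4 * k + 5) := by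
    rw [A_succ, chi_even (4 * k + 5 + 1) (by omega)]; simp
  have h7 : (0:ℝ) ≤ 1 / ((4 * k + 5 : ℕ) : ℝ) := by positivity
  rcases hk with h | h | h | h <;> rw [h]
  · exact h3
  · rw [h4]; exact h3
  · rw [h5, h4]; linarith
  · rw [h6, h5, h4]; linarith

/-- the character as an arithmetic function -/
noncomputable def X : ArithmeticFunction ℝ := ⟨chi, chi_zero⟩

/-- the convolution of `1` and the character -/
noncomputable def b : ArithmeticFunction ℝ := (ArithmeticFunction.zeta : ArithmeticFunction ℝ) * X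

theorem X_apply (n : ℕ) : X n = chi n := rfl

theorem b_apply (n : ℕ) : b n = ∑ d ∈ n.divisors, chi d := by
  unfold b; rw [coe_zeta_mul_apply]; rfl

theorem X_mult : X.IsMultiplicative := ⟨chi_one, fun {m n} _ => chi_mul m n⟩

theorem b_mult : b.IsMultiplicative := isMultiplicative_zeta.natCast.mul X_mult

theorem chi_pow (p k : ℕ) : chi (p ^ k) = chi p ^ k := by
  induction k with
  | zero => simp [chi_one]
  | succ k ih => rw [pow_succ, chi_mul, ih, pow_succ]

theorem b_prime_pow {p : ℕ} (hp : p.Prime) (k : ℕ) : b (p ^ k) = ∑ i ∈ range (k + 1), chi p ^ i := by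
  rw [b_apply, Nat.sum_divisors_prime_pow hp]
  exact Finset.sum_congr rfl (fun i _ => chi_pow p i)

theorem b_prime_pow_nonneg {p : ℕ} (hp : p.Prime) (k : ℕ) : 0 ≤ b (p ^ k) := by
  rw [b_prime_pow hp]
  rcases chi_cases p with h | h | h
  · rw [h]; exact Finset.sum_nonneg (fun i _ => by positivity)
  · rw [h]; exact Finset.sum_nonneg (fun i _ => by positivity)
  · rw [h, neg_one_geom_sum]; split_ifs <;> norm_num

theorem b_nonneg (n : ℕ) : 0 ≤ b n := by
  rcases eq_or_ne n 0 with rfl | hn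
  · simp
  · rw [b_mult.multiplicative_factorization _ hn]
    exact Finset.prod_nonneg (fun p hp => b_prime_pow_nonneg (Nat.prime_of_mem_primeFactors hp) _)

/-- the lower bound -/
theorem lower (N : ℕ) : 2 / 3 * Real.log N ≤ ∑ n ∈ Icc 1 N, b n / n := by
  have h1 : ∑ n ∈ Icc 1 N, b n / n = ∑ m ∈ Icc 1 N, (1 / (m:ℝ)) * A (N / m) := by
    have e1 : ∑ n ∈ Icc 1 N, b n / n = ∑ n ∈ Icc 1 N, ∑ x ∈ n.divisorsAntidiagonal,
        (1 / (x.1:ℝ)) * (chi x.2 / x.2) := by
      apply Finset.sum_congr rfl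
      intro n hn
      rw [mem_Icc] at hn
      unfold b
      rw [ArithmeticFunction.mul_apply, Finset.sum_div]
      apply Finset.sum_congr rfl
      intro x hx
      rw [Nat.mem_divisorsAntidiagonal] at hx
      have h2 : x.1 ≠ 0 := by rintro h; rw [h] at hx; omega
      have h3 : x.2 ≠ 0 := by rintro h; rw [h] at hx; omega
      rw [natCoe_apply, zeta_apply, if_neg h2, X_apply, ← hx.1]
      push_cast
      have h2' : (x.1:ℝ) ≠ 0 := by exact_mod_cast h2
      have h3' : (x.2:ℝ) ≠ 0 := by exact_mod_cast h3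
      field_simp
    rw [e1, Finset.sum_sigma']
    have e2 : ∑ m ∈ Icc 1 N, (1 / (m:ℝ)) * A (N / m) = ∑ m ∈ Icc 1 N, ∑ d ∈ Icc 1 (N / m),
        (1 / (m:ℝ)) * (chi d / d) := by
      apply Finset.sum_congr rfl
      intro m _
      unfold A
      rw [← Finset.mul_sum, Finset.sum_range_succ', chi_zero]
      simp only [zero_div, add_zero]
      congr 1
      rw [Finset.range_eq_Ico, Finset.sum_Ico_add' (fun d => chi d / (d:ℝ)) 0 (N / m) 1]
      apply Finset.sum_congr _ (fun _ _ => rfl)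
      ext x; rw [mem_Ico, mem_Icc]; omega
    rw [e2, Finset.sum_sigma']
    refine Finset.sum_bij' (fun s _ => ⟨s.2.1, s.2.2⟩) (fun s _ => ⟨s.1 * s.2, (s.1, s.2)⟩)
      ?_ ?_ ?_ ?_ ?_
    · intro s hs
      rw [mem_sigma, mem_Icc, Nat.mem_divisorsAntidiagonal] at hs
      rw [mem_sigma, mem_Icc, mem_Icc]
      obtain ⟨⟨h1, h2⟩, h3, h4⟩ := hs
      have ha : s.2.1 ≠ 0 := by rintro h; rw [h] at h3; omega
      have hb : s.2.2 ≠ 0 := by rintro h; rw [h] at h3; omega
      have hle : s.2.1 * s.2.2 ≤ N := by rw [h3]; exact h2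
      refine ⟨⟨by simp only; omega, ?_⟩, by simp only; omega, ?_⟩
      · simp only
        calc s.2.1 = s.2.1 * 1 := by ring
          _ ≤ s.2.1 * s.2.2 := Nat.mul_le_mul_left _ (by omega)
          _ ≤ N := hle
      · simp only
        rw [Nat.le_div_iff_mul_le (by omega), mul_comm]; exact hle
    · intro s hs
      rw [mem_sigma, mem_Icc, mem_Icc] at hs
      obtain ⟨⟨h1, h2⟩, h3, h4⟩ := hs
      rw [mem_sigma, mem_Icc, Nat.mem_divisorsAntidiagonal]
      have hle : s.1 * s.2 ≤ N := by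
        have := (Nat.le_div_iff_mul_le (by omega)).1 h4
        rw [mul_comm]; exact this
      have hpos : 1 ≤ s.1 * s.2 := Nat.mul_pos (by omega) (by omega)
      exact ⟨⟨hpos, hle⟩, rfl, by simp only; omega⟩
    · rintro ⟨n, a, c⟩ hs
      rw [mem_sigma, mem_Icc, Nat.mem_divisorsAntidiagonal] at hs
      obtain ⟨_, h3, _⟩ := hs
      simp only at h3 ⊢
      subst h3
      rfl
    · rintro ⟨m, d⟩ _; rfl
    · rintro ⟨n, a, c⟩ _; rfl
  rw [h1]
  have h2 : 2 / 3 * Real.log N ≤ ∑ m ∈ Icc 1 N, (1 / (m:ℝ)) * (2 / 3) := by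
    rw [← Finset.sum_mul, mul_comm]
    apply mul_le_mul_of_nonneg_right _ (by norm_num)
    have h3 := log_add_one_le_harmonic N
    have h4 : ((harmonic N : ℚ) : ℝ) = ∑ m ∈ Icc 1 N, (1 / (m:ℝ)) := by
      rw [harmonic_eq_sum_Icc]; push_cast
      apply Finset.sum_congr rfl
      intro m _
      rw [one_div]
    rw [← h4]
    refine le_trans ?_ h3
    rcases Nat.eq_zero_or_pos N with h0 | h0
    · rw [h0]; simp
    · apply Real.log_le_log (by exact_mod_cast h0)
      push_cast; linarith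
  refine h2.trans (Finset.sum_le_sum (fun m hm => ?_))
  rw [mem_Icc] at hm
  apply mul_le_mul_of_nonneg_left _ (by positivity)
  apply A_ge
  rw [Nat.le_div_iff_mul_le (by omega)]; omega

end Vale.Agent.H22.P015
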