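import Vale.Agent.H22.P015.A

/-! P015, row A, upper bound by the Euler product. -/

namespace Vale.Agent.H22.P015

open Finset ArithmeticFunction

theorem chi_abs_le (p : ℕ) : |chi p| ≤ 1 := by
  rcases chi_cases p with h | h | h <;> rw [h] <;> norm_num

theorem summ1 {p : ℕ} (hp : p.Prime) : Summable (fun j : ℕ => ‖(1 / (p:ℝ)) ^ j‖) := by
  have h2 : (2:ℝ) ≤ p := by exact_mod_cast hp.two_le
  have h3 : (1:ℝ) / p < 1 := by rw [div_lt_one (by linarith)]; linarith
  have h4 : (0:ℝ) ≤ 1 / p := by positivity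
  simpa [norm_pow, abs_of_nonneg h4] using summable_geometric_of_lt_one (r := ((p:ℝ))⁻¹) (by positivity) (by rw [← one_div]; exact h3)

theorem chip_lt {p : ℕ} (hp : p.Prime) : |chi p / (p:ℝ)| < 1 := by
  have h2 : (2:ℝ) ≤ p := by exact_mod_cast hp.two_le
  rw [abs_div, div_lt_one (by rw [abs_of_nonneg (by linarith)]; linarith), abs_of_nonneg (by linarith : (0:ℝ) ≤ p)]
  have := chi_abs_le p
  linarith

theorem summ2 {p : ℕ} (hp : p.Prime) : Summable (fun j : ℕ => ‖(chi p / (p:ℝ)) ^ j‖) := by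
  simp only [norm_pow]
  exact summable_geometric_of_lt_one (norm_nonneg _) (chip_lt hp)

theorem local_eq {p : ℕ} (hp : p.Prime) (n : ℕ) : b (p ^ n) / ((p ^ n : ℕ) : ℝ) =
    ∑ k ∈ range (n + 1), (chi p / (p:ℝ)) ^ k * (1 / (p:ℝ)) ^ (n - k) := by
  have h2 : (p:ℝ) ≠ 0 := by exact_mod_cast hp.ne_zero
  rw [b_prime_pow hp, Finset.sum_div]
  apply Finset.sum_congr rfl
  intro k hk
  rw [mem_range] at hk
  have e : (p:ℝ) ^ n = (p:ℝ) ^ k * (p:ℝ) ^ (n - k) := by
    rw [← pow_add]; congr 1; omega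
  push_cast
  rw [e, div_pow, one_div, inv_pow]
  field_simp

theorem summ3 {p : ℕ} (hp : p.Prime) : Summable (fun n : ℕ => ‖b (p ^ n) / ((p ^ n : ℕ) : ℝ)‖) := by
  simp_rw [local_eq hp]
  exact summable_norm_sum_mul_range_of_summable_norm (summ2 hp) (summ1 hp)

theorem local_tsum {p : ℕ} (hp : p.Prime) : ∑' n : ℕ, b (p ^ n) / ((p ^ n : ℕ) : ℝ) =
    (1 - chi p / p)⁻¹ * (1 - 1 / (p:ℝ))⁻¹ := by
  simp_rw [local_eq hp]
  rw [← tsum_mul_tsum_eq_tsum_sum_range_of_summable_norm (summ2 hp) (summ1 hp)]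
  have h2 : (2:ℝ) ≤ p := by exact_mod_cast hp.two_le
  have h3 : (1:ℝ) / p < 1 := by rw [div_lt_one (by linarith)]; linarith
  rw [tsum_geometric_of_norm_lt_one (chip_lt hp), tsum_geometric_of_lt_one (by positivity) h3]

/-- local factor -/
noncomputable def E (p : ℕ) : ℝ := (1 - chi p / p)⁻¹ * (1 - 1 / (p:ℝ))⁻¹

theorem sum_le_prod (N : ℕ) : ∑ n ∈ Icc 1 N, b n / n ≤ ∏ p ∈ (N+1).primesBelow, E p := by
  have hf1 : (fun n : ℕ => b n / (n:ℝ)) 1 = 1 := by
    simp [b_mult.map_one]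
  have hmul : ∀ {m n : ℕ}, Nat.Coprime m n → (fun n : ℕ => b n / (n:ℝ)) (m * n) =
      (fun n : ℕ => b n / (n:ℝ)) m * (fun n : ℕ => b n / (n:ℝ)) n := by
    intro m n h
    simp only
    rw [b_mult.map_mul_of_coprime h]
    push_cast
    rw [mul_div_mul_comm]
  have h := EulerProduct.summable_and_hasSum_smoothNumbers_prod_primesBelow_tsum
    (f := fun n : ℕ => b n / (n:ℝ)) hf1 hmul (fun {p} hp => summ3 hp) (N + 1)
  have h2 : ∏ p ∈ (N+1).primesBelow, E p = ∏ p ∈ (N+1).primesBelow, ∑' n : ℕ, b (p ^ n) / ((p ^ n : ℕ) : ℝ) := by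
    apply Finset.prod_congr rfl
    intro p hp
    rw [local_tsum (Nat.prime_of_mem_primesBelow hp)]
    rfl
  rw [h2]
  have hmem : ∀ n ∈ Icc 1 N, n ∈ (N+1).smoothNumbers := by
    intro n hn
    rw [mem_Icc] at hn
    exact Nat.mem_smoothNumbers_of_lt (by omega) (by omega)
  have h3 := sum_le_hasSum ((Icc 1 N).attach.image (fun n => (⟨n.1, hmem n.1 n.2⟩ : (N+1).smoothNumbers)))
    (fun i _ => div_nonneg (b_nonneg i.1) (Nat.cast_nonneg _)) h.2
  refine le_trans (le_of_eq ?_) h3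
  rw [Finset.sum_image]
  · rw [← Finset.sum_attach]
  · intro x _ y _ hxy
    apply Subtype.ext
    exact congrArg (fun z : (N+1).smoothNumbers => (z:ℕ)) hxy

theorem E_bound {p : ℕ} (hp : p.Prime) : E p ≤
    (if p = 2 then 2 else 1) * (if p % 4 = 1 then Real.exp (5/2 * (1 / p)) else 1) *
      (1 - 1 / (p:ℝ)^2)⁻¹ ^ (if p % 4 = 3 then 1 else 0) := by
  have h2 : (2:ℝ) ≤ p := by exact_mod_cast hp.two_le
  have hp0 : (0:ℝ) < p := by linarith
  unfold E
  by_cases hp2 : p = 2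
  · subst hp2
    rw [chi_even 2 (by norm_num)]; norm_num
  have hodd : p % 2 = 1 := hp.eq_two_or_odd.resolve_left hp2
  have h4 : p % 4 = 1 ∨ p % 4 = 3 := by omega
  rcases h4 with h4 | h4
  · rw [chi_1 p h4, if_neg hp2, if_pos h4, if_neg (by omega), pow_zero, one_mul, mul_one]
    have h5 : (5:ℝ) ≤ p := by
      have := hp.two_le
      have : 5 ≤ p := by omega
      exact_mod_cast this
    have h6 : (1 - 1 / (p:ℝ))⁻¹ ≤ Real.exp (5/4 * (1 / p)) := by
      have h7 : (1 - 1 / (p:ℝ))⁻¹ = 1 + 1 / (p - 1) := by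
        have : (p:ℝ) - 1 ≠ 0 := by linarith
        field_simp; ring
      have h8 : 1 / ((p:ℝ) - 1) ≤ 5/4 * (1 / p) := by
        rw [mul_one_div, div_le_div_iff₀ (by linarith) hp0]; linarith
      rw [h7]
      have := Real.add_one_le_exp (5/4 * (1 / (p:ℝ)))
      linarith
    have h9 : (0:ℝ) ≤ (1 - 1 / (p:ℝ))⁻¹ := by
      apply inv_nonneg.2
      rw [sub_nonneg, div_le_one hp0]; linarith
    calc (1 - 1 / (p:ℝ))⁻¹ * (1 - 1 / (p:ℝ))⁻¹ ≤ Real.exp (5/4 * (1 / p)) * Real.exp (5/4 * (1 / p)) :=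
          mul_le_mul h6 h6 h9 (Real.exp_pos _).le
      _ = Real.exp (5/2 * (1 / p)) := by rw [← Real.exp_add]; congr 1; ring
  · rw [chi_3 p h4, if_neg hp2, if_neg (by omega), if_pos h4, pow_one, one_mul, one_mul]
    apply le_of_eq
    rw [← mul_inv]
    congr 1
    field_simp; ring

theorem prod_sq (N : ℕ) : ∏ n ∈ Icc 2 N, (1 - 1 / (n:ℝ)^2)⁻¹ ≤ 2 := by
  have h : ∀ M : ℕ, ∏ n ∈ Icc 2 (M + 1), (1 - 1 / (n:ℝ)^2)⁻¹ = 2 * ((M:ℝ) + 1) / ((M:ℝ) + 2) := by
    intro M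
    induction M with
    | zero => simp
    | succ M ih =>
      rw [Finset.prod_Icc_succ_top (by omega), ih]
      push_cast
      have h1 : ((M:ℝ) + 1 + 1) ≠ 0 := by positivity
      have h2 : ((M:ℝ) + 2) ≠ 0 := by positivity
      have h3 : (1 - 1 / ((M:ℝ) + 1 + 1)^2)⁻¹ = ((M:ℝ) + 2)^2 / (((M:ℝ) + 1) * (M + 3)) := by
        have : (1 - 1 / ((M:ℝ) + 1 + 1)^2) = (((M:ℝ) + 1) * (M + 3)) / ((M:ℝ) + 2)^2 := by
          field_simp; ring
        rw [this, inv_div]
      rw [h3]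
      have h4 : ((M:ℝ) + 1) ≠ 0 := by positivity
      have h5 : ((M:ℝ) + 3) ≠ 0 := by positivity
      have h6 : ((M:ℝ) + 1 + 2) ≠ 0 := by positivity
      field_simp
      ring
  rcases Nat.eq_zero_or_pos N with h0 | h0
  · rw [h0]; simp
  · obtain ⟨M, rfl⟩ : ∃ M, N = M + 1 := ⟨N - 1, by omega⟩
    rw [h M, div_le_iff₀ (by positivity)]; linarith

theorem sq_factor_ge {n : ℕ} (hn : 2 ≤ n) : 1 ≤ (1 - 1 / (n:ℝ)^2)⁻¹ := by
  have h2 : (2:ℝ) ≤ n := by exact_mod_cast hn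
  rw [one_le_inv₀]
  · have : (0:ℝ) ≤ 1 / (n:ℝ)^2 := by positivity
    linarith
  · rw [sub_pos, div_lt_one (by positivity)]; nlinarith

theorem prod_le (N : ℕ) : ∏ p ∈ (N+1).primesBelow, E p ≤
    4 * Real.exp (5/2 * ∑ p ∈ (range (N+1)).filter (fun p => p.Prime ∧ p % 4 = 1), (1:ℝ)/p) := by
  have hE0 : ∀ p ∈ (N+1).primesBelow, 0 ≤ E p := by
    intro p hp
    have hp' := Nat.prime_of_mem_primesBelow hp
    unfold E
    have h2 : (2:ℝ) ≤ p := by exact_mod_cast hp'.two_le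
    have h3 := (abs_lt.1 (chip_lt hp')).2
    apply mul_nonneg
    · apply inv_nonneg.2; linarith
    · apply inv_nonneg.2
      rw [sub_nonneg, div_le_one (by linarith)]; linarith
  refine (Finset.prod_le_prod hE0 (fun p hp => E_bound (Nat.prime_of_mem_primesBelow hp))).trans ?_
  rw [Finset.prod_mul_distrib, Finset.prod_mul_distrib]
  have a1 : ∏ p ∈ (N+1).primesBelow, (if p = 2 then (2:ℝ) else 1) ≤ 2 := by
    rw [Finset.prod_ite_eq' (N+1).primesBelow 2 (fun _ => (2:ℝ))]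
    split_ifs <;> norm_num
  have a1' : 0 ≤ ∏ p ∈ (N+1).primesBelow, (if p = 2 then (2:ℝ) else 1) :=
    Finset.prod_nonneg (fun p _ => by split_ifs <;> norm_num)
  have a2 : ∏ p ∈ (N+1).primesBelow, (if p % 4 = 1 then Real.exp (5/2 * (1 / (p:ℝ))) else 1) =
      Real.exp (5/2 * ∑ p ∈ (range (N+1)).filter (fun p => p.Prime ∧ p % 4 = 1), (1:ℝ)/p) := by
    rw [← Finset.prod_filter, ← Real.exp_sum, ← Finset.mul_sum]
    congr 2
    apply Finset.sum_congr _ (fun _ _ => rfl)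
    ext p
    simp only [mem_filter, Nat.mem_primesBelow, mem_range]
    tauto
  have a3 : ∏ p ∈ (N+1).primesBelow, (1 - 1 / (p:ℝ)^2)⁻¹ ^ (if p % 4 = 3 then 1 else 0) ≤ 2 := by
    refine le_trans ?_ (prod_sq N)
    have hs : (N+1).primesBelow ⊆ Icc 2 N := by
      intro p hp
      rw [Nat.mem_primesBelow] at hp
      rw [mem_Icc]
      exact ⟨hp.2.two_le, by omega⟩
    calc _ ≤ ∏ p ∈ (N+1).primesBelow, (1 - 1 / (p:ℝ)^2)⁻¹ := by
          apply Finset.prod_le_prod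
          · intro p hp
            have := sq_factor_ge (Nat.prime_of_mem_primesBelow hp).two_le
            positivity
          · intro p hp
            have := sq_factor_ge (Nat.prime_of_mem_primesBelow hp).two_le
            split_ifs
            · rw [pow_one]
            · rw [pow_zero]; exact this
      _ ≤ _ := by
          rw [← Finset.prod_sdiff hs]
          have h1 : 1 ≤ ∏ x ∈ Icc 2 N \ (N+1).primesBelow, (1 - 1 / (x:ℝ)^2)⁻¹ := by
            apply Finset.prod_induction _ (fun x : ℝ => 1 ≤ x)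
            · intro a b ha hb
              exact one_le_mul_of_one_le_of_one_le ha hb
            · exact le_rfl
            · intro x hx
              rw [mem_sdiff, mem_Icc] at hx
              exact sq_factor_ge hx.1.1
          have h2 : 0 ≤ ∏ p ∈ (N+1).primesBelow, (1 - 1 / (p:ℝ)^2)⁻¹ := by
            apply Finset.prod_nonneg
            intro p hp
            have := sq_factor_ge (Nat.prime_of_mem_primesBelow hp).two_le
            linarith
          exact le_mul_of_one_le_left h2 h1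
  have a3' : 0 ≤ ∏ p ∈ (N+1).primesBelow, (1 - 1 / (p:ℝ)^2)⁻¹ ^ (if p % 4 = 3 then 1 else 0) := by
    apply Finset.prod_nonneg
    intro p hp
    have := sq_factor_ge (Nat.prime_of_mem_primesBelow hp).two_le
    positivity
  rw [a2]
  set e := Real.exp (5/2 * ∑ p ∈ (range (N+1)).filter (fun p => p.Prime ∧ p % 4 = 1), (1:ℝ)/p) with he
  have he0 : 0 ≤ e := (Real.exp_pos _).le
  calc _ ≤ 2 * e * 2 := mul_le_mul (mul_le_mul_of_nonneg_right a1 he0) a3 a3' (by positivity)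
    _ = 4 * e := by ring

set_option linter.unusedVariables false in
/-- Row A. -/
theorem rowA (N : ℕ) (hN : 2 ≤ N) :
    Real.log N ≤ 6 * Real.exp (5/2 * ∑ p ∈ (Finset.range (N+1)).filter
      (fun p => p.Prime ∧ p % 4 = 1), (1:ℝ)/p) := by
  have h1 := lower N
  have h2 := sum_le_prod N
  have h3 := prod_le N
  linarith

end Vale.Agent.H22.P015
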